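import Vale.Agent.P181.TS.Spec

/-!
# P181, TS: the order and the leading coefficient of a minor; [TS-ORD3]
-/

set_option autoImplicit false

namespace Vale.Agent.P181.TS.H312

open Finset Vale.Agent.P181 Vale.Agent.P181.H280 Vale.Agent.P181.H463 Vale.Agent.P181.H59

variable {b R : ℕ}

/-- the row `i` is the row of a missed class -/
def Ms (cl : Fin b → Fin R) (A : Finset (Fin b)) (i : ℕ) : Prop :=
  ∃ h : i < R, (⟨i, h⟩ : Fin R) ∈ miss cl A

open scoped Classical in
/-- the entries after the division of the rows of the missed classes by `t` -/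
noncomputable def pn (r : ℕ) (cl : Fin b → Fin R) (y : Fin b → Fin R → Bool)
    (G : Fin b → ℕ → ℂ) (A : Finset (Fin b)) (n : ℕ) (u : Fin b) (i : Fin n) : Polynomial ℂ :=
  if Ms cl A i then
    (if h : (i : ℕ) < R then
      (if (i : ℕ) / r = (cl u : ℕ) / r ∧ y u ⟨i, h⟩ = true then 1 else 0) else 0)
  else pt r cl y G n u i

open scoped Classical in
lemma pt_eq (r : ℕ) (cl : Fin b → Fin R) (y : Fin b → Fin R → Bool)
    (G : Fin b → ℕ → ℂ) (A : Finset (Fin b)) (n : ℕ) (u : Fin b) (hu : u ∈ A) (i : Fin n) :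
    pt r cl y G n u i = (if Ms cl A i then Polynomial.X else 1) * pn r cl y G A n u i := by
  rw [pn]
  by_cases h : Ms cl A i
  · rw [if_pos h, if_pos h]
    obtain ⟨hi, hm⟩ := h
    rw [miss, mem_filter] at hm
    have h1 : cl u ≠ ⟨i, hi⟩ := hm.2 u hu
    rw [pt, dif_pos hi, dif_pos hi, if_neg h1, zero_add]
    by_cases h2 : (i : ℕ) / r = (cl u : ℕ) / r ∧ y u ⟨i, hi⟩ = true
    · rw [if_pos ⟨h1, h2⟩, if_pos h2, mul_one]
    · rw [if_neg (fun h => h2 h.2), if_neg h2, mul_zero]
  · rw [if_neg h, if_neg h, one_mul]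

lemma card_ms (cl : Fin b → Fin R) (A : Finset (Fin b)) {l : ℕ} (hl : R ≤ l) :
    ∀ [DecidablePred fun s : Fin l => Ms cl A s],
      (univ.filter fun s : Fin l => Ms cl A s).card = (miss cl A).card := by
  intro _
  have h : (univ.filter fun s : Fin l => Ms cl A s) =
      (miss cl A).map (Fin.castLEEmb hl) := by
    ext s
    simp only [mem_filter, mem_univ, true_and, mem_map, Fin.castLEEmb_apply]
    constructor
    · rintro ⟨h1, h2⟩
      exact ⟨⟨s, h1⟩, h2, rfl⟩
    · rintro ⟨i, hi, rfl⟩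
      exact ⟨i.2, hi⟩
  rw [h, card_map]

/-- **the order of a minor** -/
theorem mn_eq (r : ℕ) (cl : Fin b → Fin R) (y : Fin b → Fin R → Bool) (G : Fin b → ℕ → ℂ)
    (l : ℕ) (hl : R ≤ l) (e : Fin l → Fin b) :
    mn r cl y G l e = Polynomial.X ^ (miss cl (univ.image e)).card *
      Matrix.det (Matrix.of fun a s : Fin l => pn r cl y G (univ.image e) l (e a) s) := by
  classical
  have h1 : (Matrix.of fun a s : Fin l => pt r cl y G l (e a) s) =
      Matrix.of fun a s : Fin l => (if Ms cl (univ.image e) s then (Polynomial.X : Polynomial ℂ)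
        else 1) * (Matrix.of fun a s : Fin l => pn r cl y G (univ.image e) l (e a) s) a s := by
    ext a s : 2
    rw [Matrix.of_apply, Matrix.of_apply, Matrix.of_apply,
      pt_eq r cl y G (univ.image e) l (e a) (mem_image_of_mem e (mem_univ a)) s]
  rw [mn, h1, Matrix.det_mul_row]
  congr 1
  rw [prod_ite, prod_const, prod_const_one, mul_one, card_ms cl _ hl]

/-- the leading matrix -/
noncomputable def m0 (r : ℕ) (cl : Fin b → Fin R) (y : Fin b → Fin R → Bool)
    (G : Fin b → ℕ → ℂ) (A : Finset (Fin b)) (n : ℕ) (u : Fin b) (i : Fin n) : ℂ :=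
  (pn r cl y G A n u i).eval 0

/-- **the leading coefficient of a minor** -/
theorem coeff_mn (r : ℕ) (cl : Fin b → Fin R) (y : Fin b → Fin R → Bool) (G : Fin b → ℕ → ℂ)
    (l : ℕ) (hl : R ≤ l) (e : Fin l → Fin b) :
    (mn r cl y G l e).coeff (miss cl (univ.image e)).card =
      Matrix.det (Matrix.of fun a s : Fin l => m0 r cl y G (univ.image e) l (e a) s) := by
  rw [mn_eq r cl y G l hl e, Polynomial.coeff_X_pow_mul', if_pos le_rfl, Nat.sub_self,
    Polynomial.coeff_zero_eq_eval_zero]
  have h := RingHom.map_det (Polynomial.evalRingHom (0 : ℂ))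
    (Matrix.of fun a s : Fin l => pn r cl y G (univ.image e) l (e a) s)
  rw [Polynomial.coe_evalRingHom] at h
  rw [h]
  rfl

open scoped Classical in
lemma m0_of_lt (r : ℕ) (cl : Fin b → Fin R) (y : Fin b → Fin R → Bool) (G : Fin b → ℕ → ℂ)
    (A : Finset (Fin b)) (n : ℕ) (u : Fin b) (i : Fin n) (hi : (i : ℕ) < R) :
    m0 r cl y G A n u i = if (⟨i, hi⟩ : Fin R) ∈ miss cl A then
      (if (i : ℕ) / r = (cl u : ℕ) / r ∧ y u ⟨i, hi⟩ = true then 1 else 0)
      else if cl u = ⟨i, hi⟩ then 1 else 0 := by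
  rw [m0, pn]
  by_cases h : (⟨i, hi⟩ : Fin R) ∈ miss cl A
  · rw [if_pos ⟨hi, h⟩, if_pos h, dif_pos hi]
    split_ifs <;> simp
  · rw [if_neg (fun h' : Ms cl A i => h h'.2), if_neg h, pt, dif_pos hi]
    split_ifs <;> simp

lemma m0_of_ge (r : ℕ) (cl : Fin b → Fin R) (y : Fin b → Fin R → Bool) (G : Fin b → ℕ → ℂ)
    (A : Finset (Fin b)) (n : ℕ) (u : Fin b) (i : Fin n) (hi : R ≤ (i : ℕ)) :
    m0 r cl y G A n u i = G u i := by
  classical
  rw [m0, pn, if_neg (fun h' : Ms cl A i => absurd h'.1 (not_lt.2 hi)), pt,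
    dif_neg (not_lt.2 hi), Polynomial.eval_C]

/-- the class columns of the leading matrix of a regular minor are independent -/
lemma li_cols (r : ℕ) (hr : 0 < r) (cl : Fin b → Fin R) (y : Fin b → Fin R → Bool)
    (G : Fin b → ℕ → ℂ) (l : ℕ) (hl : R ≤ l) (e : Fin l → Fin b)
    (hreg : Reg r cl y (univ.image e)) :
    LinearIndependent ℂ fun (i : Fin R) (a : Fin l) =>
      m0 r cl y G (univ.image e) l (e a) (Fin.castLE hl i) := by
  classical
  rw [Fintype.linearIndependent_iff]
  intro c hc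
  -- the equation of a letter
  have key : ∀ a : Fin l, ∑ i : Fin R, c i * (if i ∈ miss cl (univ.image e) then
      (if (i : ℕ) / r = (cl (e a) : ℕ) / r ∧ y (e a) i = true then (1 : ℂ) else 0)
      else if cl (e a) = i then 1 else 0) = 0 := by
    intro a
    have h := congrFun hc a
    rw [Finset.sum_apply, Pi.zero_apply] at h
    refine Eq.trans (sum_congr rfl fun i _ => ?_) h
    rw [Pi.smul_apply, smul_eq_mul,
      m0_of_lt r cl y G _ l (e a) (Fin.castLE hl i) i.2]
    rfl
  have hmem : ∀ a : Fin l, e a ∈ univ.image e := fun a => mem_image_of_mem e (mem_univ a)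
  have hnm : ∀ a : Fin l, cl (e a) ∉ miss cl (univ.image e) := by
    intro a h
    rw [miss, mem_filter] at h
    exact h.2 (e a) (hmem a) rfl
  -- split the equation
  have key2 : ∀ a : Fin l, c (cl (e a)) + ∑ i ∈ miss cl (univ.image e),
      c i * (if (i : ℕ) / r = (cl (e a) : ℕ) / r ∧ y (e a) i = true then (1 : ℂ) else 0) = 0 := by
    intro a
    have h := key a
    rw [← Finset.sum_filter_add_sum_filter_not univ
      (fun i : Fin R => i ∈ miss cl (univ.image e)), add_comm] at h
    have h1 : ∑ i ∈ univ.filter (fun i : Fin R => i ∈ miss cl (univ.image e)),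
        c i * (if i ∈ miss cl (univ.image e) then
        (if (i : ℕ) / r = (cl (e a) : ℕ) / r ∧ y (e a) i = true then (1 : ℂ) else 0)
        else if cl (e a) = i then 1 else 0) = ∑ i ∈ miss cl (univ.image e),
        c i * (if (i : ℕ) / r = (cl (e a) : ℕ) / r ∧ y (e a) i = true then (1 : ℂ) else 0) := by
      rw [Finset.filter_mem_eq_inter, univ_inter]
      apply sum_congr rfl
      intro i hi
      rw [if_pos hi]
    have h2 : ∑ i ∈ univ.filter (fun i : Fin R => ¬ i ∈ miss cl (univ.image e)),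
        c i * (if i ∈ miss cl (univ.image e) then
        (if (i : ℕ) / r = (cl (e a) : ℕ) / r ∧ y (e a) i = true then (1 : ℂ) else 0)
        else if cl (e a) = i then 1 else 0) = c (cl (e a)) := by
      rw [Finset.sum_eq_single (cl (e a))]
      · rw [if_neg (hnm a), if_pos rfl, mul_one]
      · intro i hi hne
        rw [mem_filter] at hi
        rw [if_neg hi.2, if_neg (Ne.symm hne), mul_zero]
      · intro h
        rw [mem_filter] at h
        exact absurd ⟨mem_univ _, hnm a⟩ h
    rw [h1, h2] at h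
    exact h
  intro i
  rcases hreg ((i : ℕ) / r) with hfull | ⟨k, hk, hmiss, -, u, hu, v, hv, huv, hcl, hblk, hy⟩
  · -- nothing is missed in the block
    have hi := hfull i rfl
    rw [miss, mem_filter] at hi
    push Not at hi
    obtain ⟨u, hu, hui⟩ := hi (mem_univ i)
    obtain ⟨a, -, rfl⟩ := mem_image.1 hu
    have h := key2 a
    rw [hui, sum_eq_zero, add_zero] at h
    · exact h
    · intro j hj
      rw [if_neg, mul_zero]
      rintro ⟨h1, -⟩
      exact hfull j h1 hj
  · -- one class is missed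
    have heq : ∀ a : Fin l, (cl (e a) : ℕ) / r = (i : ℕ) / r →
        c (cl (e a)) + c k * (if y (e a) k = true then (1 : ℂ) else 0) = 0 := by
      intro a ha
      have h := key2 a
      rw [Finset.sum_eq_single k] at h
      · have h3 : (k : ℕ) / r = (cl (e a) : ℕ) / r := hk.trans ha.symm
        simpa only [h3, true_and] using h
      · intro j hj hjk
        rw [if_neg, mul_zero]
        rintro ⟨h1, -⟩
        exact hjk ((hmiss j (h1.trans ha)).1 hj)
      · intro h'
        exact absurd ((hmiss k hk).2 rfl) h'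
    obtain ⟨a, -, rfl⟩ := mem_image.1 hu
    obtain ⟨a', -, rfl⟩ := mem_image.1 hv
    have h1 := heq a hblk
    have h2 := heq a' (by rw [← hcl]; exact hblk)
    rw [← hcl] at h2
    have hck : c k = 0 := by
      have h3 : c k * (if y (e a) k = true then (1 : ℂ) else 0) =
          c k * (if y (e a') k = true then (1 : ℂ) else 0) := by
        linear_combination h1 - h2
      cases hya : y (e a) k <;> cases hyb : y (e a') k <;> rw [hya, hyb] at h3 hy <;>
        simp at h3 hy <;> first | exact h3 | exact h3.symm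
    by_cases hik : i = k
    · rw [hik, hck]
    · have hi : i ∉ miss cl (univ.image e) := fun h => hik ((hmiss i rfl).1 h)
      rw [miss, mem_filter] at hi
      push Not at hi
      obtain ⟨w, hw, hwi⟩ := hi (mem_univ i)
      obtain ⟨a'', -, rfl⟩ := mem_image.1 hw
      have h3 := heq a'' (by rw [hwi])
      rw [hwi, hck, zero_mul, add_zero] at h3
      exact h3

lemma sumExtend_inl {ι K V : Type*} [DivisionRing K] [AddCommGroup V] [Module K V] {v : ι → V}
    (hv : LinearIndependent K v) (i : ι) : Module.Basis.sumExtend hv (Sum.inl i) = v i := by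
  rw [Module.Basis.sumExtend, Module.Basis.reindex_apply, Module.Basis.extend_apply_self]
  rfl

/-- completion of independent vectors to a nonsingular matrix -/
lemma exists_compl {R l : ℕ} (hl : R ≤ l) (v : Fin R → Fin l → ℂ) (hv : LinearIndependent ℂ v) :
    ∃ w : Fin l → Fin l → ℂ, (∀ i : Fin R, w (Fin.castLE hl i) = v i) ∧
      (Matrix.of fun a s : Fin l => w s a).det ≠ 0 := by
  classical
  obtain ⟨d, rfl⟩ := Nat.exists_eq_add_of_le hl
  let B := Module.Basis.sumExtend hv
  have : Finite (Fin R ⊕ Module.Basis.sumExtendIndex hv) := Module.Finite.finite_basis B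
  have : Finite (Module.Basis.sumExtendIndex hv) :=
    Finite.of_injective (Sum.inr : Module.Basis.sumExtendIndex hv →
      Fin R ⊕ Module.Basis.sumExtendIndex hv) Sum.inr_injective
  haveI := Fintype.ofFinite (Module.Basis.sumExtendIndex hv)
  have hcard : Fintype.card (Module.Basis.sumExtendIndex hv) = d := by
    have h1 := Module.finrank_eq_card_basis B
    rw [Module.finrank_fin_fun, Fintype.card_sum, Fintype.card_fin] at h1
    omega
  let ε : Fin R ⊕ Module.Basis.sumExtendIndex hv ≃ Fin (R + d) :=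
    (Equiv.sumCongr (Equiv.refl _) (Fintype.equivFinOfCardEq hcard)).trans finSumFinEquiv
  let B' := B.reindex ε
  refine ⟨fun s => B' s, fun i => ?_, ?_⟩
  · have h1 : Fin.castLE hl i = ε (Sum.inl i) := by
      simp [ε, finSumFinEquiv_apply_left, Fin.castLE, Fin.castAdd]
    rw [h1]
    simp only [B', Module.Basis.reindex_apply, Equiv.symm_apply_apply]
    exact sumExtend_inl hv i
  · have h2 : LinearIndependent ℂ (fun s => B' s) := B'.linearIndependent
    have h3 : (Matrix.of fun a s : Fin (R + d) => B' s a) =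
        (Matrix.of fun s a : Fin (R + d) => B' s a).transpose := rfl
    rw [h3, Matrix.det_transpose]
    have h4 := (Matrix.linearIndependent_rows_iff_isUnit
      (A := (Matrix.of fun s a : Fin (R + d) => B' s a))).1 h2
    exact ((Matrix.isUnit_iff_isUnit_det _).1 h4).ne_zero

/-- the leading coefficient as a polynomial in the generic entries -/
noncomputable def Qm (r : ℕ) (cl : Fin b → Fin R) (y : Fin b → Fin R → Bool) (l : ℕ)
    (e : Fin l → Fin b) : MvPolynomial (Fin b × ℕ) ℂ :=
  Matrix.det (Matrix.of fun a s : Fin l => if (s : ℕ) < R then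
    MvPolynomial.C (m0 r cl y 0 (univ.image e) l (e a) s) else
    MvPolynomial.X (e a, (s : ℕ)))

lemma eval_Qm (r : ℕ) (cl : Fin b → Fin R) (y : Fin b → Fin R → Bool) (l : ℕ)
    (e : Fin l → Fin b) (G : Fin b × ℕ → ℂ) :
    MvPolynomial.eval G (Qm r cl y l e) = Matrix.det (Matrix.of fun a s : Fin l =>
      m0 r cl y (fun u i => G (u, i)) (univ.image e) l (e a) s) := by
  rw [Qm, RingHom.map_det]
  congr 1
  ext a s : 2
  rw [RingHom.mapMatrix_apply, Matrix.map_apply, Matrix.of_apply, Matrix.of_apply]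
  by_cases h : (s : ℕ) < R
  · rw [if_pos h, MvPolynomial.eval_C]
    classical
    rw [m0_of_lt _ _ _ _ _ _ _ _ h, m0_of_lt _ _ _ _ _ _ _ _ h]
  · rw [if_neg h, MvPolynomial.eval_X, m0_of_ge _ _ _ _ _ _ _ _ (not_lt.1 h)]

lemma Qm_ne (r : ℕ) (hr : 0 < r) (cl : Fin b → Fin R) (y : Fin b → Fin R → Bool) (l : ℕ)
    (hl : R ≤ l) (e : Fin l → Fin b) (he : Function.Injective e)
    (hreg : Reg r cl y (univ.image e)) : Qm r cl y l e ≠ 0 := by
  classical
  intro h0
  obtain ⟨w, hw, hdet⟩ := exists_compl hl _ (li_cols r hr cl y 0 l hl e hreg)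
  let G : Fin b × ℕ → ℂ := fun p => if h : (∃ a, e a = p.1) ∧ p.2 < l then
    w ⟨p.2, h.2⟩ h.1.choose else 0
  have h1 := eval_Qm r cl y l e G
  rw [h0, map_zero] at h1
  apply hdet
  rw [h1]
  congr 1
  ext a s : 2
  rw [Matrix.of_apply, Matrix.of_apply]
  by_cases h : (s : ℕ) < R
  · have h2 : s = Fin.castLE hl ⟨s, h⟩ := rfl
    have h3 := congrFun (hw ⟨s, h⟩) a
    rw [← h2] at h3
    rw [h3, m0_of_lt _ _ _ _ _ _ _ _ h, m0_of_lt _ _ _ _ _ _ _ _ h]
  · rw [m0_of_ge _ _ _ _ _ _ _ _ (not_lt.1 h)]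
    have h2 : (∃ a', e a' = (e a, (s : ℕ)).1) ∧ (e a, (s : ℕ)).2 < l := ⟨⟨a, rfl⟩, s.2⟩
    simp only [G]
    rw [dif_pos h2]
    have h3 : h2.1.choose = a := he h2.1.choose_spec
    rw [h3]

/-- **[TS-ORD3]** -/
theorem ord3 : Ord3 := by
  classical
  intro b r g cl y ι _ l e hr hl he hreg
  haveI := Fintype.ofFinite ι
  have h1 : ∏ c, Qm r cl y (l c) (e c) ≠ 0 :=
    prod_ne_zero_iff.2 fun c _ => Qm_ne r hr cl y (l c) (hl c) (e c) (he c) (hreg c)
  have h2 : ∃ G : Fin b × ℕ → ℂ, MvPolynomial.eval G (∏ c, Qm r cl y (l c) (e c)) ≠ 0 := by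
    by_contra h
    push Not at h
    apply h1
    apply MvPolynomial.funext
    intro x
    rw [h x, map_zero]
  obtain ⟨G, hG⟩ := h2
  rw [map_prod, prod_ne_zero_iff] at hG
  refine ⟨fun u i => G (u, i), fun c => ?_⟩
  rw [coeff_mn r cl y _ (l c) (hl c) (e c), ← eval_Qm]
  exact hG c (mem_univ c)

end Vale.Agent.P181.TS.H312
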